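import Mathlib.Analysis.CStarAlgebra.Classes
import Mathlib.Topology.ContinuousMap.Bounded.Star
import Mathlib.Topology.ContinuousMap.Bounded.Normed
import Mathlib.Order.Filter.Ultrafilter.Defs

open Filter Topology
open scoped BoundedContinuousFunction

namespace Vale.Agent.P083N

/-- `q : ℓ^∞(ℕ, O) → Q` realizes the C*-algebra `Q` as the norm ultrapower
`O^ω = ℓ^∞(ℕ, O) / {x : lim_ω ‖x n‖ = 0}`: `q` is a surjective unital *-homomorphism whose kernel
is the ideal of bounded sequences which are null along `ω`. -/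
structure IsUltrapower (O : Type) [CStarAlgebra O] (ω : Ultrafilter ℕ)
    (Q : Type) [CStarAlgebra Q] (q : (ℕ →ᵇ O) →⋆ₐ[ℂ] Q) : Prop where
  surj : Function.Surjective q
  ker : ∀ x, q x = 0 ↔ Tendsto (fun n => ‖x n‖) ω (𝓝 0)

end Vale.Agent.P083N
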